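import Vale.Agent.P181.NR.Defs

set_option autoImplicit false

/-!
# P181, NR: (N5) the choice of the block weight (helper201)
-/

namespace Vale.Agent.P181.NR.H201

open Finset

/-- A sequence with a given sum between two sequences. -/
theorem between (s : Finset ℕ) (L E : ℕ → ℕ) (h : ∀ i ∈ s, L i ≤ E i) :
    ∀ Z, ∑ i ∈ s, L i ≤ Z → Z ≤ ∑ i ∈ s, E i →
      ∃ e : ℕ → ℕ, (∀ i ∈ s, L i ≤ e i ∧ e i ≤ E i) ∧ ∑ i ∈ s, e i = Z := by
  induction s using Finset.induction_on with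
  | empty =>
    intro Z _ h2
    simp only [sum_empty, Nat.le_zero] at h2
    exact ⟨fun _ => 0, by simp, by simp [h2]⟩
  | insert a s ha ih =>
    intro Z h1 h2
    rw [sum_insert ha] at h1 h2
    have hs : ∀ i ∈ s, L i ≤ E i := fun i hi => h i (mem_insert_of_mem hi)
    have ha' := h a (mem_insert_self _ _)
    have hLE : ∑ i ∈ s, L i ≤ ∑ i ∈ s, E i := sum_le_sum hs
    obtain ⟨x, hx1, hx2, hx3, hx4⟩ : ∃ x, L a ≤ x ∧ x ≤ E a ∧ ∑ i ∈ s, L i + x ≤ Z ∧
        Z ≤ x + ∑ i ∈ s, E i := by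
      refine ⟨min (E a) (Z - ∑ i ∈ s, L i), ?_, ?_, ?_, ?_⟩ <;> omega
    obtain ⟨e, he, hsum⟩ := ih hs (Z - x) (by omega) (by omega)
    have hne : ∀ i ∈ s, i ≠ a := fun i hi hia => ha (hia ▸ hi)
    refine ⟨Function.update e a x, ?_, ?_⟩
    · intro i hi
      rcases mem_insert.1 hi with rfl | hi
      · rw [Function.update_self]
        exact ⟨hx1, hx2⟩
      · rw [Function.update_of_ne (hne i hi)]
        exact he i hi
    · rw [sum_insert ha, Function.update_self]
      have h3 : ∑ i ∈ s, Function.update e a x i = ∑ i ∈ s, e i :=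
        sum_congr rfl fun i hi => Function.update_of_ne (hne i hi) _ _
      rw [h3, hsum]
      omega

/-- **(N5)** -/
theorem splS : SplS := by
  intro m j n a b B X q g hj1 hjm hMn hn hB hsum hb hlo hgj
  obtain ⟨M, hM⟩ : ∃ M, M = m.factorial := ⟨_, rfl⟩
  rw [← hM] at hMn hlo hgj ⊢
  have hM0 : 0 < M := hM ▸ Nat.factorial_pos m
  obtain ⟨N, rfl⟩ := hMn
  have hXg : X ≤ g j := (Nat.le_add_right _ _).trans hgj
  have hjmem : j ∈ Icc 1 m := mem_Icc.2 ⟨hj1, hjm⟩
  obtain ⟨g', hg'⟩ : ∃ g' : ℕ → ℕ, ∀ i, g i = g' i + if i = j then X else 0 := by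
    refine ⟨fun i => g i - if i = j then X else 0, fun i => ?_⟩
    by_cases h : i = j
    · simp only [h, if_true]
      omega
    · simp [h]
  obtain ⟨E, hE⟩ : ∃ E : ℕ → ℕ, ∀ i, E i = i * g' i / (B * M) := ⟨_, fun _ => rfl⟩
  have hBM : 0 < B * M := Nat.mul_pos hB hM0
  have hE1 : ∀ i, B * M * E i ≤ i * g' i := fun i => by rw [hE]; exact Nat.mul_div_le _ _
  have hE2 : ∀ i, i * g' i < B * M * (E i + 1) := fun i => by
    rw [hE]
    exact Nat.lt_mul_div_succ _ hBM
  have hs1 : ∑ i ∈ Icc 1 m, i * g' i + j * X = a * b := by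
    rw [← hsum]
    have h1 : ∀ i ∈ Icc 1 m, i * g i = i * g' i + if i = j then j * X else 0 := by
      intro i _
      rw [hg' i, mul_add]
      by_cases h : i = j
      · simp [h]
      · simp [h]
    rw [sum_congr rfl h1, sum_add_distrib, sum_ite_eq', if_pos hjmem]
  have hZ1 : ∑ i ∈ Icc 1 m, E i / 2 ≤ N * a := by
    refine Nat.le_of_mul_le_mul_left (c := 2 * (B * M)) ?_ (by omega)
    calc 2 * (B * M) * ∑ i ∈ Icc 1 m, E i / 2 = ∑ i ∈ Icc 1 m, B * M * (2 * (E i / 2)) := by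
          rw [mul_sum]
          exact sum_congr rfl fun i _ => by ring
      _ ≤ ∑ i ∈ Icc 1 m, i * g' i :=
          sum_le_sum fun i _ => (Nat.mul_le_mul_left _ (Nat.mul_div_le _ _)).trans (hE1 i)
      _ ≤ a * b := by omega
      _ ≤ a * (2 * (M * N) * B) := Nat.mul_le_mul_left _ hb
      _ = 2 * (B * M) * (N * a) := by ring
  have hZ2 : N * a ≤ ∑ i ∈ Icc 1 m, E i := by
    refine Nat.le_of_mul_le_mul_left (c := B * M) ?_ hBM
    have h1 : ∑ i ∈ Icc 1 m, i * g' i ≤ B * M * ∑ i ∈ Icc 1 m, E i + m * B * M := by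
      calc ∑ i ∈ Icc 1 m, i * g' i ≤ ∑ i ∈ Icc 1 m, (B * M * E i + B * M) :=
            sum_le_sum fun i _ => (hE2 i).le
        _ = B * M * ∑ i ∈ Icc 1 m, E i + m * B * M := by
            rw [sum_add_distrib, ← mul_sum, sum_const, Nat.card_Icc, smul_eq_mul]
            have h2 : m + 1 - 1 = m := by omega
            rw [h2]
            ring
    have h3 : j * X ≤ m * X := Nat.mul_le_mul_right _ hjm
    have h4 : B * M * (N * a) = M * N * B * a := by ring
    rw [h4]
    omega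
  obtain ⟨e, he, hes⟩ := between (Icc 1 m) (fun i => E i / 2) E (fun i _ => Nat.div_le_self _ _)
    (N * a) hZ1 hZ2
  have hdiv : ∀ i ∈ Icc 1 m, i * (M / i) = M := by
    intro i hi
    rw [mem_Icc] at hi
    exact Nat.mul_div_cancel' (hM ▸ Nat.dvd_factorial (by omega) hi.2)
  obtain ⟨c, hc⟩ : ∃ c : ℕ → ℕ, ∀ i, c i = if i ∈ Icc 1 m then M / i * e i else 0 :=
    ⟨_, fun _ => rfl⟩
  have hci : ∀ i ∈ Icc 1 m, i * c i = M * e i := by
    intro i hi
    rw [hc, if_pos hi, ← mul_assoc, hdiv i hi]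
  have hpos : ∀ i ∈ Icc 1 m, 0 < i := fun i hi => (mem_Icc.1 hi).1
  have hup : ∀ i, B * c i ≤ g' i := by
    intro i
    by_cases hi : i ∈ Icc 1 m
    · refine Nat.le_of_mul_le_mul_left (c := i) ?_ (hpos i hi)
      calc i * (B * c i) = B * (i * c i) := by ring
        _ = B * M * e i := by rw [hci i hi]; ring
        _ ≤ B * M * E i := Nat.mul_le_mul_left _ (he i hi).2
        _ ≤ i * g' i := hE1 i
    · rw [hc, if_neg hi]
      simp
  have hlow : ∀ i ∈ Icc 1 m, g' i < 2 * B * c i + 2 * B * M := by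
    intro i hi
    refine Nat.lt_of_mul_lt_mul_left (a := i) ?_
    have h1 : E i + 1 ≤ 2 * e i + 2 := by
      have := (he i hi).1
      omega
    calc i * g' i < B * M * (E i + 1) := hE2 i
      _ ≤ B * M * (2 * e i + 2) := Nat.mul_le_mul_left _ h1
      _ = 2 * B * (M * e i) + 1 * (2 * B * M) := by ring
      _ ≤ 2 * B * (M * e i) + i * (2 * B * M) :=
          Nat.add_le_add_left (Nat.mul_le_mul_right _ (hpos i hi)) _
      _ = i * (2 * B * c i + 2 * B * M) := by rw [← hci i hi]; ring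
  refine ⟨c, ?_, fun i => ?_, ?_, ?_, fun i hi => ?_⟩
  · rw [sum_congr rfl hci, ← mul_sum, hes]
    ring
  · rw [hg' i]
    exact (hup i).trans (Nat.le_add_right _ _)
  · have h1 := hlow j hjmem
    have h2 := hg' j
    rw [if_pos rfl] at h2
    have h3 : 2 * B * (M + q) < 2 * B * (c j + M) := by
      have h4 : 2 * B * (c j + M) = 2 * B * c j + 2 * B * M := by ring
      omega
    have h5 := Nat.lt_of_mul_lt_mul_left h3
    omega
  · have h2 := hg' j
    rw [if_pos rfl] at h2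
    have h1 := hup j
    omega
  · rw [hg' i]
    have h1 := hlow i hi
    omega

end Vale.Agent.P181.NR.H201
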